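import Vale.Agent.P040.Even.Full
import Vale.Agent.P040.H522.OFin
import Vale.Agent.P040.H908.HexG
import Vale.Agent.P040.H870.Cut

namespace Vale.Agent.Results.P040.BrickFactory

open Vale.Agent.P040

/-- the exclusion of triple ties, for an arbitrary cut of the circle -/
theorem hexVt : H908.HexVt :=
  fun _ _ _ _ _ _ _ hg hcol _ hL Ep Em hp hm hpe hme =>
    H870.hex_law hg hcol hL Ep Em hp hm hpe hme

/-- the deletion machine for all odd orders -/
theorem oddMachine : Odd.OddMachine :=
  H522.oddMachine_of_hex fun _ P => H908.hexGeom_of hexVt P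

/-- **Zarankiewicz's conjecture**: the crossing number of `K_{m,n}` is `d_m d_n` for all `m`, `n`. -/
theorem result (m n : ℕ) : IsLeast {c | ∃ D : Drawing (K m n), D.crossings = c} (zar m n) :=
  Even.full oddMachine m n

end Vale.Agent.Results.P040.BrickFactory
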