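import Vale.Agent.P040.Even.Full
import Vale.Agent.P040.H522.OFin
import Vale.Agent.P040.H908.HexG
import Vale.Agent.P040.H870.Cut
import Vale.Agent.P040.H837.HHMain
import Vale.Agent.P040.H682.TwoDraw

namespace Vale.Agent.Results.P040.CrossingNumbers

open Vale.Agent.P040 Vale.Agent.P040.Even

/-- the exclusion of triple ties, for an arbitrary cut of the circle -/
theorem hexVt : H908.HexVt :=
  fun _ _ _ _ _ _ _ hg hcol _ hL Ep Em hp hm hpe hme =>
    H870.hex_law hg hcol hL Ep Em hp hm hpe hme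

/-- the deletion machine for all odd orders -/
theorem oddMachine : Odd.OddMachine :=
  H522.oddMachine_of_hex fun _ P => H908.hexGeom_of hexVt P

/-- for even `n` the two-page drawing is optimal -/
theorem complete_even (n : ℕ) (hn : Even n) :
    IsLeast {c | ∃ D : Drawing (⊤ : SimpleGraph (Fin n)), D.crossings = c} (hill n) := by
  obtain ⟨D, hD⟩ := H682.Two.exists_drawing_le n
  refine ⟨⟨D, le_antisymm hD (HH.hill_le_of_even HH.totalIneq hn D)⟩, ?_⟩
  rintro c ⟨D', rfl⟩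
  exact HH.hill_le_of_even HH.totalIneq hn D'

/-- for all `n` the least number of crossings is `Z(n)` up to `n²/8` -/
theorem complete_all (n : ℕ) :
    ∃ c : ℕ, IsLeast {c | ∃ D : Drawing (⊤ : SimpleGraph (Fin n)), D.crossings = c} c ∧
      c ≤ hill n ∧ (hill n : ℝ) - (n : ℝ) ^ 2 / 8 ≤ c ∧
      (4 ≤ n → (1 - 2 / (((n / 2 : ℕ) : ℝ) * (2 * ((n / 2 : ℕ) : ℝ) - 3))) * hill n ≤ c) := by
  obtain ⟨D₀, h₀⟩ := H682.Two.exists_drawing_le n
  have hne : {c | ∃ D : Drawing (⊤ : SimpleGraph (Fin n)), D.crossings = c}.Nonempty :=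
    ⟨_, D₀, rfl⟩
  obtain ⟨D, hD⟩ := Nat.sInf_mem hne
  refine ⟨D.crossings, ⟨⟨D, rfl⟩, ?_⟩, ?_, HH.hill_sub_le HH.totalIneq D,
    fun h4 => HH.hill_factor HH.totalIneq h4 D⟩
  · rintro c hc
    rw [hD]
    exact Nat.sInf_le hc
  · rw [hD]
    have h₁ : sInf {c | ∃ D : Drawing (⊤ : SimpleGraph (Fin n)), D.crossings = c} ≤
        D₀.crossings := Nat.sInf_le ⟨D₀, rfl⟩
    exact h₁.trans h₀

/-- **The crossing numbers of `K_{m,n}` and of `K_n`.** -/
theorem result :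
    (∀ m n : ℕ, IsLeast {c | ∃ D : Drawing (K m n), D.crossings = c} (zar m n)) ∧
    (∀ n : ℕ, Even n →
      IsLeast {c | ∃ D : Drawing (⊤ : SimpleGraph (Fin n)), D.crossings = c} (hill n)) ∧
    (∀ n : ℕ, ∃ c : ℕ,
      IsLeast {c | ∃ D : Drawing (⊤ : SimpleGraph (Fin n)), D.crossings = c} c ∧
      c ≤ hill n ∧ (hill n : ℝ) - (n : ℝ) ^ 2 / 8 ≤ c ∧
      (4 ≤ n → (1 - 2 / (((n / 2 : ℕ) : ℝ) * (2 * ((n / 2 : ℕ) : ℝ) - 3))) * hill n ≤ c)) :=
  ⟨fun m n => Even.full oddMachine m n, complete_even, complete_all⟩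

end Vale.Agent.Results.P040.CrossingNumbers
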