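import Vale.Agent.P040.Even.Top
import Vale.Agent.P040.H84.Machine
import Vale.Agent.P040.H837.HHEnd

namespace Vale.Agent.Results.P040.EvenCases

open Vale.Agent.P040

theorem total : HH.TotalIneq := fun _ hp C =>
  Pst.hill_of_input (fun _ hh leaf hl => H84.selInput hh leaf hl) hp C

/-- Zarankiewicz's conjecture for `m n` even and the Harary–Hill bound for `n` even, and both
conjectures asymptotically in general; there is no restriction on the drawings. -/
theorem result :
    (∀ m n : ℕ, Even m ∨ Even n →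
      IsLeast {c | ∃ D : Drawing (K m n), D.crossings = c} (zar m n)) ∧
    (∀ m n : ℕ, 3 ≤ m → ∀ D : Drawing (K m n),
      (1 - 2 / (((m : ℝ) - 1) * (m - 2))) * (zar m n : ℝ) ≤ D.crossings) ∧
    (∀ n : ℕ, Even n → ∀ D : Drawing (⊤ : SimpleGraph (Fin n)), Even.hill n ≤ D.crossings) ∧
    (∀ n : ℕ, 4 ≤ n → ∀ D : Drawing (⊤ : SimpleGraph (Fin n)),
      (1 - 2 / (((n / 2 : ℕ) : ℝ) * (2 * ((n / 2 : ℕ) : ℝ) - 3))) * (Even.hill n : ℝ) ≤
        D.crossings) ∧
    (∀ n : ℕ, ∀ D : Drawing (⊤ : SimpleGraph (Fin n)),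
      (Even.hill n : ℝ) - (n : ℝ) ^ 2 / 8 ≤ D.crossings) :=
  ⟨fun _ _ h => Even.least (Bp.even_of_machine H84.machine) h,
    fun _ _ hm D => Even.all_bound (Bp.even_of_machine H84.machine) hm D,
    fun _ hn D => HH.hill_le_of_even total hn D,
    fun _ hn D => HH.hill_factor total hn D,
    fun _ D => HH.hill_sub_le total D⟩

end Vale.Agent.Results.P040.EvenCases
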