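import Vale.Agent.P040.H837.HHMain

namespace Vale.Agent.Results.P040.HararyHillEven

open Vale.Agent.P040 Vale.Agent.P040.Even

/-- **The Harary–Hill conjecture for all even `n`**: every drawing of `K_n` has at least `Z(n)`
crossings. For all `n` (also odd): `c(D) ≥ Z(n) - n²/8`, the relative error is at most
`2/(p(2p-3))` with `p = ⌊n/2⌋`, and `c(D) ≥ (1 - ε) Z(n)` for `n` large. -/
theorem result :
    (∀ n : ℕ, Even n → ∀ D : Drawing (⊤ : SimpleGraph (Fin n)), hill n ≤ D.crossings) ∧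
    (∀ n : ℕ, ∀ D : Drawing (⊤ : SimpleGraph (Fin n)),
      (hill n : ℝ) - (n : ℝ) ^ 2 / 8 ≤ D.crossings) ∧
    (∀ n : ℕ, 4 ≤ n → ∀ D : Drawing (⊤ : SimpleGraph (Fin n)),
      (1 - 2 / (((n / 2 : ℕ) : ℝ) * (2 * ((n / 2 : ℕ) : ℝ) - 3))) * hill n ≤ D.crossings) ∧
    (∀ ε : ℝ, 0 < ε → ∃ N : ℕ, ∀ n : ℕ, N ≤ n →
      ∀ D : Drawing (⊤ : SimpleGraph (Fin n)), (1 - ε) * (hill n : ℝ) ≤ D.crossings) :=
  ⟨fun _ hn D => HH.hill_le_of_even HH.totalIneq hn D,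
    fun _ D => HH.hill_sub_le HH.totalIneq D,
    fun _ hn D => HH.hill_factor HH.totalIneq hn D,
    fun _ hε => HH.hill_lim hε⟩

end Vale.Agent.Results.P040.HararyHillEven
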