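import Vale.Agent.P040.Even.Top
import Vale.Agent.P040.H84.Machine

namespace Vale.Agent.Results.P040.ZarankiewiczEven

open Vale.Agent.P040

/-- Zarankiewicz's conjecture for all `m`, `n` one of which is even (exact value of the crossing number
of `K_{m,n}`), and for both odd the bound with the factor `1 - 2 / ((m - 1) (m - 2))`, hence the
asymptotic conjecture; there is no restriction on the drawings. -/
theorem result :
    (∀ m n : ℕ, Even m ∨ Even n →
      IsLeast {c | ∃ D : Drawing (K m n), D.crossings = c} (zar m n)) ∧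
    (∀ m n : ℕ, 3 ≤ m → ∀ D : Drawing (K m n),
      (1 - 2 / (((m : ℝ) - 1) * (m - 2))) * (zar m n : ℝ) ≤ D.crossings) ∧
    (∀ ε : ℝ, 0 < ε → ∃ N : ℕ, ∀ m n : ℕ, N ≤ max m n →
      ∀ D : Drawing (K m n), (1 - ε) * (zar m n : ℝ) ≤ D.crossings) :=
  ⟨fun _ _ h => Even.least (Bp.even_of_machine H84.machine) h,
    fun _ _ hm D => Even.all_bound (Bp.even_of_machine H84.machine) hm D,
    Even.zar_lim (Bp.even_of_machine H84.machine)⟩

end Vale.Agent.Results.P040.ZarankiewiczEven
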